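import Vale.Agent.P073.MM.Rows

/-!
# P073, block MM: convolution with a bump function
-/

namespace Vale.Agent.P073.MM

open MeasureTheory Set Filter Topology Metric Vale.Agent.P073.St Vale.Agent.P073.AB
open scoped ContDiff ENNReal Convolution

variable {E : Type*} [NormedAddCommGroup E] [NormedSpace ℝ E]

/-- convolution with the normed bump function -/
noncomputable def cv (φ : ContDiffBump (0 : V)) (u : V → E) (x : V) : E :=
  ∫ y, φ.normed volume (x - y) • u y

theorem cv_eq (φ : ContDiffBump (0 : V)) (u : V → E) :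
    cv φ u = (φ.normed volume ⋆[ContinuousLinearMap.lsmul ℝ ℝ, volume] u) := by
  funext x
  exact (convolution_lsmul_swap).symm

theorem cv_unif [CompleteSpace E] {u : V → E} (hu : Continuous u) (hc : HasCompactSupport u)
    {η : ℝ} (hη : 0 < η) :
    ∃ δ : ℝ, 0 < δ ∧ ∀ φ : ContDiffBump (0 : V), φ.rOut ≤ δ → ∀ x, ‖cv φ u x - u x‖ ≤ η := by
  have h1 : UniformContinuous u := hc.uniformContinuous_of_continuous hu
  obtain ⟨δ, hδ, h2⟩ := Metric.uniformContinuous_iff.1 h1 η hη
  refine ⟨δ, hδ, fun φ hφ x => ?_⟩
  rw [← dist_eq_norm, cv_eq]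
  exact φ.dist_normed_convolution_le hu.aestronglyMeasurable fun y hy =>
    (h2 ((mem_ball.1 hy).trans_le hφ)).le

theorem cv_smooth (φ : ContDiffBump (0 : V)) {u : V → E} (hu : LocallyIntegrable u) :
    ContDiff ℝ ∞ (cv φ u) := by
  rw [cv_eq]
  exact φ.hasCompactSupport_normed.contDiff_convolution_left _ φ.contDiff_normed hu

/-- the kernel times a locally integrable function is integrable -/
theorem cv_integrable (φ : ContDiffBump (0 : V)) {u : V → E} (hu : LocallyIntegrable u) (x : V) :
    Integrable (fun y => φ.normed volume (x - y) • u y) := by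
  have hk : Continuous fun y => φ.normed volume (x - y) :=
    φ.continuous_normed.comp (continuous_const.sub continuous_id)
  have hs : HasCompactSupport fun y => φ.normed volume (x - y) :=
    φ.hasCompactSupport_normed.comp_homeomorph (Homeomorph.subLeft x)
  exact hu.integrable_smul_left_of_hasCompactSupport hk hs

theorem cv_apply (φ : ContDiffBump (0 : V)) {u : V → V →L[ℝ] V} (hu : LocallyIntegrable u)
    (x v : V) : cv φ u x v = cv φ (fun y => u y v) x := by
  unfold cv
  rw [ContinuousLinearMap.integral_apply (cv_integrable φ hu x)]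
  rfl

theorem cv_fderiv (φ : ContDiffBump (0 : V)) {u : V → V} (hu : LocallyIntegrable u) (x v : V) :
    fderiv ℝ (cv φ u) x v = ∫ y, (fderiv ℝ (φ.normed volume) (x - y) v) • u y := by
  have h1 := φ.hasCompactSupport_normed (μ := (volume : Measure V)).hasFDerivAt_convolution_left
    (ContinuousLinearMap.lsmul ℝ ℝ) (φ.contDiff_normed (n := 1)) hu x
  rw [cv_eq, h1.fderiv, convolution_eq_swap, ContinuousLinearMap.integral_apply]
  · rfl
  · have hk : Continuous fun y => fderiv ℝ (φ.normed volume) (x - y) :=
      ((φ.contDiff_normed (n := 1)).continuous_fderiv (by simp)).comp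
        (continuous_const.sub continuous_id)
    have hs : HasCompactSupport fun y => fderiv ℝ (φ.normed volume) (x - y) :=
      (φ.hasCompactSupport_normed.fderiv (𝕜 := ℝ)).comp_homeomorph (Homeomorph.subLeft x)
    have h2 := (φ.hasCompactSupport_normed (μ := (volume : Measure V)).fderiv
      (𝕜 := ℝ)).convolutionExists_left ((ContinuousLinearMap.lsmul ℝ ℝ).precompL V)
      ((φ.contDiff_normed (n := 1)).continuous_fderiv (by simp)) hu x
    exact h2.integrable_swap

theorem psi_deriv (φ : ContDiffBump (0 : V)) {χ : V → ℝ} (hχ : ContDiff ℝ ∞ χ) (x v y : V) :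
    fderiv ℝ (fun y => φ.normed volume (x - y) * χ y) y v =
      - (fderiv ℝ (φ.normed volume) (x - y) v * χ y) +
      φ.normed volume (x - y) * fderiv ℝ χ y v := by
  have e1 : HasFDerivAt (fun y : V => φ.normed volume (x - y))
      ((fderiv ℝ (φ.normed volume) (x - y)).comp (-ContinuousLinearMap.id ℝ V)) y := by
    have e2 : HasFDerivAt (fun y : V => x - y) (-ContinuousLinearMap.id ℝ V) y :=
      (hasFDerivAt_id y).const_sub x
    exact (((φ.contDiff_normed (n := 1)).differentiable (by simp) _).hasFDerivAt).comp y e2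
  have e3 : HasFDerivAt χ (fderiv ℝ χ y) y := ((hχ.differentiable (by simp)) y).hasFDerivAt
  have e4 : HasFDerivAt (fun y => φ.normed volume (x - y) * χ y) _ y := e1.mul e3
  rw [e4.fderiv]
  simp
  ring

section

variable {U : Set V} {f : V → V} {χ : V → ℝ}

theorem cont_smul (hU : IsOpen U) (hf : ContinuousOn f U) {c : V → ℝ} (hc : Continuous c)
    (hs : tsupport c ⊆ U) : Continuous fun y => c y • f y := by
  refine ContinuousOn.continuous_of_tsupport_subset (hc.continuousOn.smul hf) hU ?_
  exact (closure_mono (Function.support_smul_subset_left _ _)).trans hs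

theorem dchi_cont (hχ : ContDiff ℝ ∞ χ) (v : V) : Continuous fun y => fderiv ℝ χ y v :=
  (hχ.continuous_fderiv (by simp)).clm_apply continuous_const

theorem dchi_comp (hc : HasCompactSupport χ) (v : V) :
    HasCompactSupport fun y => fderiv ℝ χ y v :=
  (hc.fderiv (𝕜 := ℝ)).comp_left (g := fun L : V →L[ℝ] ℝ => L v) rfl

theorem dchi_supp (hs : tsupport χ ⊆ U) (v : V) : tsupport (fun y => fderiv ℝ χ y v) ⊆ U := by
  refine Subset.trans ?_ ((tsupport_fderiv_subset ℝ (f := χ)).trans hs)
  refine closure_mono fun y hy => ?_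
  intro h0
  apply hy
  show fderiv ℝ χ y v = 0
  rw [h0]; rfl

theorem part_one (φ : ContDiffBump (0 : V)) {w : V → V} (hs : ∀ y, y ∉ U → χ y = 0) (x : V) :
    ∫ y in U, (φ.normed volume (x - y) * χ y) • w y = cv φ (fun y => χ y • w y) x := by
  unfold cv
  rw [setIntegral_eq_integral_of_forall_compl_eq_zero]
  · refine integral_congr_ae (ae_of_all _ fun y => ?_)
    simp only [smul_smul]
  · intro y hy
    simp only [hs y hy, mul_zero, zero_smul]

theorem part_two (φ : ContDiffBump (0 : V)) (hU : IsOpen U) (hf : ContinuousOn f U)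
    (hχ : ContDiff ℝ ∞ χ) (hc : HasCompactSupport χ) (hs : tsupport χ ⊆ U) (x v : V) :
    ∫ y in U, (- (fderiv ℝ (φ.normed volume) (x - y) v * χ y) +
      φ.normed volume (x - y) * fderiv ℝ χ y v) • f y =
      - fderiv ℝ (cv φ fun y => χ y • f y) x v + cv φ (fun y => fderiv ℝ χ y v • f y) x := by
  have hχf : Continuous fun y => χ y • f y := cont_smul hU hf hχ.continuous hs
  have hχfs : HasCompactSupport fun y => χ y • f y := hc.smul_right
  have hdf : Continuous fun y => fderiv ℝ χ y v • f y :=
    cont_smul hU hf (dchi_cont hχ v) (dchi_supp hs v)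
  have hdfs : HasCompactSupport fun y => fderiv ℝ χ y v • f y := (dchi_comp hc v).smul_right
  have i1 : Integrable fun y => fderiv ℝ (φ.normed volume) (x - y) v • χ y • f y := by
    have c1 : Continuous fun y => fderiv ℝ (φ.normed volume) (x - y) v • χ y • f y :=
      ((((φ.contDiff_normed (n := 1)).continuous_fderiv (by simp)).comp
        (continuous_const.sub continuous_id)).clm_apply continuous_const).smul hχf
    refine c1.integrable_of_hasCompactSupport (hχfs.mono fun y hy => ?_)
    intro h0
    apply hy
    show _ • χ y • f y = 0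
    have h0' : χ y • f y = 0 := h0
    rw [h0', smul_zero]
  have i2 : Integrable fun y => φ.normed volume (x - y) • fderiv ℝ χ y v • f y :=
    cv_integrable φ hdf.locallyIntegrable x
  rw [cv_fderiv φ hχf.locallyIntegrable, setIntegral_eq_integral_of_forall_compl_eq_zero]
  · unfold cv
    have e1 := integral_add i1.neg i2
    have e2 := integral_neg (μ := (volume : Measure V))
      (fun y => fderiv ℝ (φ.normed volume) (x - y) v • χ y • f y)
    rw [← e2]
    refine Eq.trans ?_ e1
    refine integral_congr_ae (ae_of_all _ fun y => ?_)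
    simp only [add_smul, neg_smul, smul_smul, Pi.neg_apply]
  · intro y hy
    have h1 : χ y = 0 := image_eq_zero_of_notMem_tsupport fun h => hy (hs h)
    have h2 : fderiv ℝ χ y v = 0 := image_eq_zero_of_notMem_tsupport (f := fun y => fderiv ℝ χ y v)
      fun h => hy (dchi_supp hs v h)
    rw [h1, h2]
    simp

/-- **the derivative of the mollification of `χ f`** -/
theorem cv_weak (φ : ContDiffBump (0 : V)) (hU : IsOpen U)
    {D : V → V →L[ℝ] V} (hf : ContinuousOn f U) (hw : HB.WeakDeriv volume U f D)
    (hχ : ContDiff ℝ ∞ χ) (hc : HasCompactSupport χ) (hs : tsupport χ ⊆ U) (x v : V) :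
    fderiv ℝ (cv φ fun y => χ y • f y) x v =
      cv φ (fun y => χ y • D y v) x + cv φ (fun y => fderiv ℝ χ y v • f y) x := by
  have hk : ContDiff ℝ ∞ fun y : V => φ.normed volume (x - y) :=
    φ.contDiff_normed.comp (contDiff_const.sub contDiff_id)
  have key := hw (fun y => φ.normed volume (x - y) * χ y) (hk.mul hχ) hc.mul_left
    ((closure_mono (Function.support_mul_subset_right _ _)).trans hs) v
  simp only [psi_deriv φ hχ] at key
  rw [part_two φ hU hf hχ hc hs x v, part_one φ (fun y hy =>
    image_eq_zero_of_notMem_tsupport fun h => hy (hs h))] at key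
  rw [key]
  simp

end

end Vale.Agent.P073.MM
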